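import Vale.Agent.P269.G1.Qc
import Vale.Agent.P269.G1.H598.Ser

/-!
# [c0], [c1] series of correlators, topological recursion, WDVV
-/

namespace Vale.Agent.P269.G1.H598

open Finset.HasAntidiagonal (antidiagonal)
open Vale.Agent.P269.CI Vale.Agent.P269.G1

variable {X : CompleteIntersection} {F : ℕ → ℕ → List (Ins X) → ℂ}

theorem ser_congr {A B : ℕ → List (Ins X) → ℂ}
    (h : ∀ d (L : List (Fin (X.dim + 1))), A d (L.map (hpow X)) = B d (L.map (hpow X))) :
    ser A = ser B := by
  unfold ser
  congr 1
  funext L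
  ext d
  simpa using h d L

theorem ser_add (A B : ℕ → List (Ins X) → ℂ) :
    ser (fun d L => A d L + B d L) = ser A + ser B := by
  unfold ser
  rw [← toSer_add']
  congr 1

theorem ser_zero : ser (X := X) (fun _ _ => 0) = 0 := by
  funext α
  change ((∏ i, (α i).factorial : ℕ) : ℚ)⁻¹ • (PowerSeries.mk fun _ => (0 : ℂ)) = 0
  have : (PowerSeries.mk fun _ => (0 : ℂ)) = 0 := by
    ext; simp
  rw [this, smul_zero]

/-- constants (the same as `cst`) -/
noncomputable def kst (X : CompleteIntersection) (c : ℂ) : RR X :=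
  MvPowerSeries.C (PowerSeries.C c)

theorem smul_RR (c : ℂ) (f : RR X) : c • f = kst X c * f := by
  ext n m
  rw [kst, MvPowerSeries.coeff_C_mul, PowerSeries.coeff_C_mul]
  rfl

theorem ser_smul (c : ℂ) (A : ℕ → List (Ins X) → ℂ) :
    ser (fun d L => c * A d L) = c • ser A := by
  funext α
  change ((∏ i, (α i).factorial : ℕ) : ℚ)⁻¹ • (PowerSeries.mk fun d => c * A d _) =
    c • (((∏ i, (α i).factorial : ℕ) : ℚ)⁻¹ • (PowerSeries.mk fun d => A d _))
  rw [smul_comm]
  congr 1

theorem ser_neg (A : ℕ → List (Ins X) → ℂ) : ser (fun d L => - A d L) = - ser A := by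
  have h := ser_smul (-1) A
  simp only [neg_mul, one_mul, neg_smul, one_smul] at h
  exact h

theorem ser_sub (A B : ℕ → List (Ins X) → ℂ) :
    ser (fun d L => A d L - B d L) = ser A - ser B := by
  have h := ser_add A (fun d L => - B d L)
  rw [ser_neg] at h
  simpa [sub_eq_add_neg] using h

theorem ser_sum {σ : Type*} (s : Finset σ) (A : σ → ℕ → List (Ins X) → ℂ) :
    ser (fun d L => ∑ x ∈ s, A x d L) = ∑ x ∈ s, ser (A x) := by
  classical
  induction s using Finset.induction_on with
  | empty => simpa using ser_zero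
  | insert a s ha ih =>
    rw [Finset.sum_insert ha, ← ih, ← ser_add]
    exact ser_congr fun d L => Finset.sum_insert ha

/-- moving an even insertion through a list -/
theorem move_even (hF : IsGW X F) (g d : ℕ) (x : Ins X) (hx : par X x.1 = false)
    (P : List (Ins X)) : ∀ Q L : List (Ins X), F g d (Q ++ (P ++ x :: L)) =
      F g d (Q ++ (x :: (P ++ L))) := by
  induction P with
  | nil => intro Q L; rfl
  | cons p P ih =>
    intro Q L
    have h1 := ih (Q ++ [p]) L
    simp only [List.append_assoc, List.nil_append, List.cons_append] at h1 ⊢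
    rw [h1, hF.symm g d Q (P ++ L) p x, hx]
    simp [sgn]

theorem par_hpow (j : Fin (X.dim + 1)) : par X (hpow X j).1 = false := rfl

/-- **[c0]** correlators with ambient or even prefix are symmetric in the ambient list -/
theorem symS_cor (hF : IsGW X F) (g : ℕ) (P : List (Ins X)) : SymS (cor F g P) := by
  intro d L M h
  unfold cor
  induction h generalizing P with
  | nil => rfl
  | cons x _ ih =>
    have h1 := ih (P ++ [hpow X x])
    simpa using h1
  | swap x y l =>
    have h1 := hF.symm g d P (l.map (hpow X)) (hpow X y) (hpow X x)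
    simpa [sgn, par_hpow] using h1
  | trans _ _ ih1 ih2 => exact (ih1 P).trans (ih2 P)

/-- **[c0]** -/
theorem pderiv_cor (hF : IsGW X F) (g : ℕ) (P : List (Ins X)) (i : Fin (X.dim + 1)) :
    MvPowerSeries.pderiv (PowerSeries ℂ) i (ser (cor F g P)) = ser (cor F g (hpow X i :: P)) := by
  rw [pderiv_ser _ (symS_cor hF g P)]
  refine ser_congr fun d L => ?_
  exact move_even hF g d (hpow X i) (par_hpow i) P [] (L.map (hpow X))

theorem cor_swap (hF : IsGW X F) (g : ℕ) (P Q : List (Ins X)) (x y : Ins X)
    (h : par X x.1 = false ∨ par X y.1 = false) :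
    ser (cor F g (P ++ x :: y :: Q)) = ser (cor F g (P ++ y :: x :: Q)) := by
  refine ser_congr fun d L => ?_
  have h1 := hF.symm g d P (Q ++ L.map (hpow X)) x y
  have h2 : sgn (par X x.1) (par X y.1) = 1 := by
    rcases h with h | h <;> simp [sgn, h]
  rw [h2, one_mul] at h1
  simpa [cor] using h1

/-- topological recursion in genus zero on the small phase space -/
theorem trr_ser (hF : IsGW X F) (a : Ix X) (m : ℕ) (x y : Ins X) :
    ser (cor F 0 [(a, m + 1), x, y]) = ∑ α, ∑ β, pairingInv X α β •
      (ser (cor F 0 [(β, 0), x, y]) * ser (cor F 0 [(a, m), (α, 0)])) := by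
  have h1 : ∀ α β, pairingInv X α β •
      (ser (cor F 0 [(β, 0), x, y]) * ser (cor F 0 [(a, m), (α, 0)])) =
      ser (fun d L => pairingInv X α β *
        mulS (cor F 0 [(β, 0), x, y]) (cor F 0 [(a, m), (α, 0)]) d L) := by
    intro α β
    rw [← ser_mulS _ _ (symS_cor hF 0 _) (symS_cor hF 0 _), ser_smul]
  simp only [h1]
  simp only [← ser_sum]
  refine ser_congr fun d L => ?_
  exact hF.trr d a m x y (L.map (hpow X))

/-- a single primitive insertion gives zero -/
theorem cor_prim (h1 : IsGenusOne F) (g : ℕ) (v : X.Prim) (m : ℕ) (P : List (Ins X))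
    (hP : ∀ x ∈ P, IsAmb X x) : ser (cor F g ((Sum.inr v, m) :: P)) = 0 := by
  rw [← ser_zero (X := X)]
  refine ser_congr fun d L => ?_
  refine h1.mono1 g d v m (P ++ L.map (hpow X)) ?_
  intro x hx
  rcases List.mem_append.1 hx with h | h
  · exact hP x h
  · obtain ⟨j, _, rfl⟩ := List.mem_map.1 h
    exact ⟨j, rfl⟩

/-- **[c1a]** -/
theorem qc_comm (hF : IsGW X F) (i j k : Fin (X.dim + 1)) : qc F i j k = qc F j i k := by
  unfold qc
  refine Finset.sum_congr rfl fun l _ => ?_
  exact congrArg _ (cor_swap hF 0 [] [hpow X l] (hpow X i) (hpow X j) (Or.inl (par_hpow i)))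

/-- WDVV with ambient classes -/
theorem wdvv (hF : IsGW X F) (h1 : IsGenusOne F) (a x y z : Fin (X.dim + 1)) :
    ∑ p : Fin (X.dim + 1), ∑ k : Fin (X.dim + 1), pairingInv X (Sum.inl p) (Sum.inl k) •
      (ser (cor F 0 [hpow X k, hpow X x, hpow X y]) * ser (cor F 0 [hpow X z, hpow X a, hpow X p])) =
    ∑ p : Fin (X.dim + 1), ∑ k : Fin (X.dim + 1), pairingInv X (Sum.inl p) (Sum.inl k) •
      (ser (cor F 0 [hpow X k, hpow X x, hpow X z]) *
        ser (cor F 0 [hpow X y, hpow X a, hpow X p])) := by
  classical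
  have der : ∀ y z : Fin (X.dim + 1), ser (cor F 0 [hpow X z, (Sum.inl a, 1), hpow X x, hpow X y]) =
      (∑ α, ∑ β, pairingInv X α β • (ser (cor F 0 [hpow X z, (β, 0), hpow X x, hpow X y]) *
        ser (cor F 0 [hpow X a, (α, 0)]))) +
      ∑ p : Fin (X.dim + 1), ∑ k : Fin (X.dim + 1), pairingInv X (Sum.inl p) (Sum.inl k) •
      (ser (cor F 0 [hpow X k, hpow X x, hpow X y]) *
        ser (cor F 0 [hpow X z, hpow X a, hpow X p])) := by
    intro y z
    have h2 := congrArg (MvPowerSeries.pderiv (PowerSeries ℂ) z)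
      (trr_ser hF (Sum.inl a) 0 (hpow X x) (hpow X y))
    rw [pderiv_cor hF, map_sum] at h2
    have h3 : ∀ α β, MvPowerSeries.pderiv (PowerSeries ℂ) z (pairingInv X α β •
        (ser (cor F 0 [(β, 0), hpow X x, hpow X y]) * ser (cor F 0 [(Sum.inl a, 0), (α, 0)]))) =
        pairingInv X α β • (ser (cor F 0 [hpow X z, (β, 0), hpow X x, hpow X y]) *
          ser (cor F 0 [hpow X a, (α, 0)])) + pairingInv X α β •
          (ser (cor F 0 [(β, 0), hpow X x, hpow X y]) *
            ser (cor F 0 [hpow X z, hpow X a, (α, 0)])) := by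
      intro α β
      have e : ∀ (c : ℂ) (f : RR X), MvPowerSeries.pderiv (PowerSeries ℂ) z (c • f) =
          c • MvPowerSeries.pderiv (PowerSeries ℂ) z f := by
        intro c f
        have : c • f = (PowerSeries.C c : PowerSeries ℂ) • f := by
          ext n m
          simp
        rw [this, Derivation.map_smul]
        ext n m
        simp
      rw [e, Derivation.leibniz, pderiv_cor hF, pderiv_cor hF, smul_eq_mul, smul_eq_mul, smul_add]
      change pairingInv X α β • (ser (cor F 0 [(β, 0), hpow X x, hpow X y]) *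
            ser (cor F 0 [hpow X z, hpow X a, (α, 0)])) +
          pairingInv X α β • (ser (cor F 0 [hpow X a, (α, 0)]) *
            ser (cor F 0 [hpow X z, (β, 0), hpow X x, hpow X y])) = _
      rw [mul_comm (ser (cor F 0 [hpow X a, (α, 0)])), add_comm]
    rw [h2]
    simp only [map_sum, h3, Finset.sum_add_distrib]
    congr 1
    rw [Fintype.sum_sum_type]
    have h4 : ∑ v : X.Prim, ∑ β, pairingInv X (Sum.inr v) β •
        (ser (cor F 0 [(β, 0), hpow X x, hpow X y]) *
            ser (cor F 0 [hpow X z, hpow X a, (Sum.inr v, 0)])) = 0 := by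
      refine Finset.sum_eq_zero fun v _ => Finset.sum_eq_zero fun β _ => ?_
      have h5 : ser (cor F 0 [hpow X z, hpow X a, (Sum.inr v, 0)]) = 0 := by
        have e1 := cor_swap hF 0 [hpow X z] [] (hpow X a) (Sum.inr v, 0) (Or.inl (par_hpow a))
        have e2 := cor_swap hF 0 [] [hpow X a] (hpow X z) (Sum.inr v, 0) (Or.inl (par_hpow z))
        simp only [List.singleton_append, List.nil_append] at e1 e2
        rw [e1, e2]
        refine cor_prim h1 0 v 0 _ ?_
        intro w hw
        rcases List.mem_cons.1 hw with h | h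
        · exact ⟨z, by rw [h]; rfl⟩
        · rcases List.mem_cons.1 h with h | h
          · exact ⟨a, by rw [h]; rfl⟩
          · simp at h
      rw [h5, mul_zero, smul_zero]
    rw [h4, add_zero]
    refine Finset.sum_congr rfl fun p _ => ?_
    rw [Fintype.sum_sum_type]
    have h6 : ∑ v : X.Prim, pairingInv X (Sum.inl p) (Sum.inr v) •
        (ser (cor F 0 [(Sum.inr v, 0), hpow X x, hpow X y]) *
            ser (cor F 0 [hpow X z, hpow X a, (Sum.inl p, 0)])) = 0 := by
      refine Finset.sum_eq_zero fun v _ => ?_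
      have h7 : pairingInv X (Sum.inl p) (Sum.inr v) = 0 := rfl
      rw [h7, zero_smul]
    rw [h6, add_zero]
    rfl
  have s1 := der y z
  have s2 := der z y
  have s3 : ser (cor F 0 [hpow X z, (Sum.inl a, 1), hpow X x, hpow X y]) =
      ser (cor F 0 [hpow X y, (Sum.inl a, 1), hpow X x, hpow X z]) := by
    refine ser_congr fun d L => ?_
    have e1 := move_even hF 0 d (hpow X y) (par_hpow y) [hpow X z, (Sum.inl a, 1), hpow X x] []
      (L.map (hpow X))
    have e2 := move_even hF 0 d (hpow X z) (par_hpow z) [(Sum.inl a, 1), hpow X x] [hpow X y]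
      (L.map (hpow X))
    simp only [List.cons_append, List.nil_append] at e1 e2
    change F 0 d (hpow X z :: (Sum.inl a, 1) :: hpow X x :: hpow X y :: L.map (hpow X)) =
      F 0 d (hpow X y :: (Sum.inl a, 1) :: hpow X x :: hpow X z :: L.map (hpow X))
    rw [e1, e2]
  have s4 : ∀ (α β : Ix X), ser (cor F 0 [hpow X z, (β, 0), hpow X x, hpow X y]) =
      ser (cor F 0 [hpow X y, (β, 0), hpow X x, hpow X z]) := by
    intro α β
    refine ser_congr fun d L => ?_
    have e1 := move_even hF 0 d (hpow X y) (par_hpow y) [hpow X z, (β, 0), hpow X x] []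
      (L.map (hpow X))
    have e2 := move_even hF 0 d (hpow X z) (par_hpow z) [(β, 0), hpow X x] [hpow X y]
      (L.map (hpow X))
    simp only [List.cons_append, List.nil_append] at e1 e2
    change F 0 d (hpow X z :: (β, 0) :: hpow X x :: hpow X y :: L.map (hpow X)) =
      F 0 d (hpow X y :: (β, 0) :: hpow X x :: hpow X z :: L.map (hpow X))
    rw [e1, e2]
  rw [s3, s2] at s1
  have s5 : (∑ α, ∑ β, pairingInv X α β • (ser (cor F 0 [hpow X z, (β, 0), hpow X x, hpow X y]) *
        ser (cor F 0 [hpow X a, (α, 0)]))) =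
      (∑ α, ∑ β, pairingInv X α β • (ser (cor F 0 [hpow X y, (β, 0), hpow X x, hpow X z]) *
        ser (cor F 0 [hpow X a, (α, 0)]))) := by
    refine Finset.sum_congr rfl fun α _ => Finset.sum_congr rfl fun β _ => ?_
    rw [s4 α β]
  rw [s5] at s1
  exact (add_left_cancel s1).symm

/-- **[c1b]** WDVV -/
theorem qc_assoc (hF : IsGW X F) (h1 : IsGenusOne F) (i j l m : Fin (X.dim + 1)) :
    ∑ k, qc F i j k * qc F k l m = ∑ k, qc F j l k * qc F i k m := by
  have e1 : ∀ i j l m : Fin (X.dim + 1), ∑ k, qc F i j k * qc F k l m =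
      ∑ s : Fin (X.dim + 1), pairingInv X (Sum.inl s) (Sum.inl m) •
        ∑ p : Fin (X.dim + 1), ∑ k : Fin (X.dim + 1), pairingInv X (Sum.inl p) (Sum.inl k) •
          (ser (cor F 0 [hpow X k, hpow X l, hpow X s]) *
            ser (cor F 0 [hpow X i, hpow X j, hpow X p])) := by
    intro i j l m
    unfold qc
    simp only [Finset.sum_mul_sum, Finset.smul_sum]
    rw [Finset.sum_comm]
    conv_lhs => enter [2, p]; rw [Finset.sum_comm]
    rw [Finset.sum_comm]
    refine Finset.sum_congr rfl fun s _ => Finset.sum_congr rfl fun p _ =>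
      Finset.sum_congr rfl fun k _ => ?_
    rw [smul_mul_smul_comm, smul_smul, mul_comm (pairingInv X (Sum.inl p) (Sum.inl k))]
    congr 1
    ring
  have e2 : ∑ k, qc F j l k * qc F i k m = ∑ k, qc F l j k * qc F k i m := by
    refine Finset.sum_congr rfl fun k _ => ?_
    rw [qc_comm hF j l, qc_comm hF i k]
  rw [e2, e1, e1]
  refine Finset.sum_congr rfl fun s _ => ?_
  congr 1
  have h := wdvv hF h1 j s l i
  have h3 : ∀ k x y : Fin (X.dim + 1), ser (cor F 0 [hpow X k, hpow X x, hpow X y]) =
      ser (cor F 0 [hpow X k, hpow X y, hpow X x]) := fun k x y =>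
    cor_swap hF 0 [hpow X k] [] (hpow X x) (hpow X y) (Or.inl (par_hpow x))
  calc _ = ∑ p : Fin (X.dim + 1), ∑ k : Fin (X.dim + 1),
        pairingInv X (Sum.inl p) (Sum.inl k) •
          (ser (cor F 0 [hpow X k, hpow X s, hpow X l]) *
            ser (cor F 0 [hpow X i, hpow X j, hpow X p])) := by
        refine Finset.sum_congr rfl fun p _ => Finset.sum_congr rfl fun k _ => ?_
        rw [h3 k l s]
    _ = _ := by
        rw [h]
        refine Finset.sum_congr rfl fun p _ => Finset.sum_congr rfl fun k _ => ?_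
        rw [h3 k s i]

theorem deg_ne : deg X ≠ 0 := by
  unfold deg
  have h : X.degs.prod ≠ 0 := by
    apply List.prod_ne_zero
    intro h0
    have := X.degs_pos 0 h0
    omega
  exact_mod_cast h

theorem pairing_inv_amb (j k : Fin (X.dim + 1)) : ∑ l : Fin (X.dim + 1),
    pairingInv X (Sum.inl l) (Sum.inl k) * pairing X (Sum.inl j) (Sum.inl l) =
      if j = k then 1 else 0 := by
  rw [Finset.sum_eq_single (⟨X.dim - j, by omega⟩ : Fin (X.dim + 1))]
  · simp only [pairing, pairingInv]
    have hj : (j : ℕ) ≤ X.dim := by omega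
    rw [if_pos (by omega : (j : ℕ) + (X.dim - j) = X.dim)]
    by_cases h : j = k
    · subst h
      rw [if_pos (by omega), if_pos rfl, inv_mul_cancel₀ deg_ne]
    · have : (j : ℕ) ≠ k := fun h' => h (Fin.ext h')
      rw [if_neg (by omega), if_neg h, zero_mul]
  · intro l _ hl
    have : (j : ℕ) + l ≠ X.dim := by
      intro h
      apply hl
      apply Fin.ext
      simp only
      omega
    simp only [pairing]
    rw [if_neg this, mul_zero]
  · simp

theorem lowerSum_zero (T : Ix X → Ix X → ℂ) (G : List (Ins X) → ℂ) (L : List (Ins X))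
    (h : ∀ x ∈ L, x.2 = 0) : lowerSum X T G L = 0 := by
  unfold lowerSum
  refine Finset.sum_eq_zero fun j _ => ?_
  rw [if_pos]
  exact h _ (List.get_mem L j)

/-- the constant series -/
theorem ser_const (c : ℂ) :
    ser (X := X) (fun d L => if d = 0 ∧ L = [] then c else 0) = kst X c := by
  unfold kst
  ext α m
  change (PowerSeries.coeff m) ((((∏ i, (α i).factorial : ℕ) : ℚ)⁻¹ •
    (PowerSeries.mk fun d => if d = 0 ∧ (lst α).map (hpow X) = [] then c else 0) :
      PowerSeries ℂ)) = _
  rw [MvPowerSeries.coeff_C]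
  by_cases hα : α = 0
  · subst hα
    rw [if_pos rfl, lst_zero]
    simp [PowerSeries.coeff_C]
  · rw [if_neg hα]
    have : lst α ≠ [] := by
      intro h
      apply hα
      ext j
      have := count_lst α j
      rw [h] at this
      simpa using this.symm
    simp [this]

/-- **[c1c]** -/
theorem qc_unit (hF : IsGW X F) (j k : Fin (X.dim + 1)) :
    qc F 0 j k = if j = k then 1 else 0 := by
  have h1 : ∀ l : Fin (X.dim + 1), ser (cor F 0 [hpow X 0, hpow X j, hpow X l]) =
      kst X (pairing X (Sum.inl j) (Sum.inl l)) := by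
    intro l
    rw [← ser_const]
    refine ser_congr fun d L => ?_
    have h2 := hF.string 0 d ([hpow X j, hpow X l] ++ L.map (hpow X))
    rw [lowerSum_zero, zero_add] at h2
    · change F 0 d ((one X, 0) :: ([hpow X j, hpow X l] ++ L.map (hpow X))) = _
      rw [h2]
      cases L with
      | nil =>
        by_cases hd : d = 0
        · simp [pairTerm, hpow, hd]
        · simp [hd]
      | cons a L => simp [pairTerm, hpow]
    · intro x hx
      rcases List.mem_append.1 hx with h | h
      · rcases List.mem_cons.1 h with h | h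
        · rw [h]; rfl
        · rcases List.mem_cons.1 h with h | h
          · rw [h]; rfl
          · simp at h
      · obtain ⟨i, _, rfl⟩ := List.mem_map.1 h
        rfl
  unfold qc
  simp only [h1]
  have h3 : ∀ c d : ℂ, c • kst X d = kst X (c * d) := by
    intro c d
    rw [smul_RR]
    unfold kst
    rw [← map_mul, ← map_mul]
  simp only [h3]
  have h4 : ∀ f : Fin (X.dim + 1) → ℂ, ∑ l, kst X (f l) = kst X (∑ l, f l) := by
    intro f
    unfold kst
    rw [map_sum, map_sum]
  rw [h4, pairing_inv_amb]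
  split_ifs
  · unfold kst; simp
  · unfold kst; simp

end Vale.Agent.P269.G1.H598
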