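import Vale.Agent.P269.G1.BSpec

/-!
# [DG] elementary rules on the big phase space
-/

namespace Vale.Agent.P269.G1.H598

open Finset.HasAntidiagonal (antidiagonal)
open Vale.Agent.P269.CI Vale.Agent.P269.G1

variable {X : CompleteIntersection} {n : ℕ} (E : Fam X n) {F : ℕ → ℕ → List (Ins X) → ℂ}

/-- **[DG]** -/
theorem bDO_add (i : Fin n) (a b : OB X n) : dB i (a + b) = dB i a + dB i b := by
  refine Prod.ext ?_ ?_
  · refine Matrix.ext fun c d => ?_
    exact map_add (MvPowerSeries.pderiv (PowerSeries ℂ) i) (a.1 c d) (b.1 c d)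
  · funext v
    exact map_add (MvPowerSeries.pderiv (PowerSeries ℂ) i) (a.2 v) (b.2 v)

/-- **[DG]** -/
theorem bDO_mul (i : Fin n) (a b : OB X n) : dB i (a * b) = dB i a * b + a * dB i b := by
  refine Prod.ext ?_ ?_
  · refine Matrix.ext fun c d => ?_
    change MvPowerSeries.pderiv (PowerSeries ℂ) i ((a.1 * b.1) c d) =
      ((dB i a).1 * b.1) c d + (a.1 * (dB i b).1) c d
    rw [Matrix.mul_apply, Matrix.mul_apply, Matrix.mul_apply, map_sum, ← Finset.sum_add_distrib]
    refine Finset.sum_congr rfl fun k _ => ?_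
    rw [Derivation.leibniz, smul_eq_mul, smul_eq_mul]
    change _ = MvPowerSeries.pderiv (PowerSeries ℂ) i (a.1 c k) * b.1 k d +
      a.1 c k * MvPowerSeries.pderiv (PowerSeries ℂ) i (b.1 k d)
    ring
  · funext v
    change MvPowerSeries.pderiv (PowerSeries ℂ) i (a.2 v * b.2 v) =
      MvPowerSeries.pderiv (PowerSeries ℂ) i (a.2 v) * b.2 v +
        a.2 v * MvPowerSeries.pderiv (PowerSeries ℂ) i (b.2 v)
    rw [Derivation.leibniz, smul_eq_mul, smul_eq_mul]
    ring

/-- **[DG]** -/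
theorem bDO_smul (i : Fin n) (r : RB n) (a : OB X n) :
    dB i (r • a) = MvPowerSeries.pderiv (PowerSeries ℂ) i r • a + r • dB i a := by
  refine Prod.ext ?_ ?_
  · refine Matrix.ext fun c d => ?_
    change MvPowerSeries.pderiv (PowerSeries ℂ) i (r * a.1 c d) =
      MvPowerSeries.pderiv (PowerSeries ℂ) i r * a.1 c d +
        r * MvPowerSeries.pderiv (PowerSeries ℂ) i (a.1 c d)
    rw [Derivation.leibniz, smul_eq_mul, smul_eq_mul]
    ring
  · funext v
    change MvPowerSeries.pderiv (PowerSeries ℂ) i (r * a.2 v) =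
      MvPowerSeries.pderiv (PowerSeries ℂ) i r * a.2 v +
        r * MvPowerSeries.pderiv (PowerSeries ℂ) i (a.2 v)
    rw [Derivation.leibniz, smul_eq_mul, smul_eq_mul]
    ring

theorem actB_apply (a : OB X n) (x : Fin (X.dim + 1) → RB n) (b : Fin (X.dim + 1)) :
    actB X n a x b = ∑ c, a.1 b c * x c := rfl

/-- **[DG]** -/
theorem bD_act (i : Fin n) (a : OB X n) (x : Fin (X.dim + 1) → RB n) (b : Fin (X.dim + 1)) :
    MvPowerSeries.pderiv (PowerSeries ℂ) i (actB X n a x b) = actB X n (dB i a) x b +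
      actB X n a (fun c => MvPowerSeries.pderiv (PowerSeries ℂ) i (x c)) b := by
  rw [actB_apply, actB_apply, actB_apply, map_sum, ← Finset.sum_add_distrib]
  refine Finset.sum_congr rfl fun c _ => ?_
  change _ = MvPowerSeries.pderiv (PowerSeries ℂ) i (a.1 b c) * x c +
    a.1 b c * MvPowerSeries.pderiv (PowerSeries ℂ) i (x c)
  rw [Derivation.leibniz, smul_eq_mul, smul_eq_mul]
  ring

/-- **[DG]** -/
theorem bstr_comm (a b : OB X n) : strB X n (a * b) = strB X n (b * a) := by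
  change Matrix.trace (a.1 * b.1) + cb n ((-1) ^ X.dim) * ∑ v, a.2 v * b.2 v =
    Matrix.trace (b.1 * a.1) + cb n ((-1) ^ X.dim) * ∑ v, b.2 v * a.2 v
  rw [Matrix.trace_mul_comm]
  congr 2
  exact Finset.sum_congr rfl fun v _ => mul_comm _ _

theorem pderiv_cb (i : Fin n) (c : ℂ) : MvPowerSeries.pderiv (PowerSeries ℂ) i (cb n c) = 0 := by
  unfold cb
  exact MvPowerSeries.pderiv_C

/-- **[DG]** -/
theorem bD_str (i : Fin n) (a : OB X n) :
    MvPowerSeries.pderiv (PowerSeries ℂ) i (strB X n a) = strB X n (dB i a) := by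
  change MvPowerSeries.pderiv (PowerSeries ℂ) i (∑ c, a.1 c c +
    cb n ((-1) ^ X.dim) * ∑ v, a.2 v) = ∑ c, MvPowerSeries.pderiv (PowerSeries ℂ) i (a.1 c c) +
      cb n ((-1) ^ X.dim) * ∑ v, MvPowerSeries.pderiv (PowerSeries ℂ) i (a.2 v)
  rw [map_add, map_sum, Derivation.leibniz, pderiv_cb, smul_zero, add_zero, smul_eq_mul, map_sum]

/-- **[DG]** -/
theorem bDO_mu (i : Fin n) : dB i (muB X n) = 0 := by
  refine Prod.ext ?_ ?_
  · refine Matrix.ext fun c d => ?_
    change MvPowerSeries.pderiv (PowerSeries ℂ) i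
      (Matrix.diagonal (fun b => cb n (mu X (Sum.inl b))) c d) = 0
    rw [Matrix.diagonal_apply]
    split_ifs
    · exact pderiv_cb i _
    · exact map_zero _
  · funext v
    exact pderiv_cb i _

/-- **[DG]** -/
theorem bDO_R (i : Fin n) : dB i (RBcl X n) = 0 := by
  refine Prod.ext ?_ ?_
  · refine Matrix.ext fun c d => ?_
    exact pderiv_cb i _
  · funext v
    exact map_zero (MvPowerSeries.pderiv (PowerSeries ℂ) i)

/-- **[DG]** -/
theorem bw_zero (h1 : IsGenusOne F) (b : Fin (X.dim + 1)) :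
    wB E h1 (E.i0 b) 0 = Pi.single b 1 := by
  funext c
  unfold wB
  rw [E.e_i0]
  change (if 0 ≤ 0 then (1 : OB X n).1 c b else 0) = _
  rw [if_pos le_rfl]
  change (1 : Matrix _ _ (RB n)) c b = _
  rw [Matrix.one_apply, Pi.single_apply]

/-- **[DG]** -/
theorem bw_succ (h1 : IsGenusOne F) (b : Fin (X.dim + 1)) (l : ℕ) :
    wB E h1 (E.i0 b) (l + 1) = 0 := by
  funext c
  unfold wB
  rw [E.e_i0]
  change (if l + 1 ≤ 0 then _ else 0) = _
  rw [if_neg (by omega)]
  rfl

end Vale.Agent.P269.G1.H598
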