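import Mathlib

/-!
# [P5] a sequence killed by a polynomial and its derivative
-/

namespace Vale.Agent.P269.G1.H598

/-- **[P5]** if a sequence over `K[[q]]` is killed by `P = x^{m+ν} - c q x^m` and by `P'` then
it vanishes from `m-1` on. -/
theorem killed {K : Type*} [Field K] [CharZero K] {m ν : ℕ} (hm : 1 ≤ m) (hν : 1 ≤ ν) (c : K)
    (hc : c ≠ 0) (a : ℕ → PowerSeries K)
    (hP : ∀ j, a (m + ν + j) = PowerSeries.C c * PowerSeries.X * a (m + j))
    (hP' : ∀ j, ((m + ν : ℕ) : PowerSeries K) * a (m + ν - 1 + j) =
      (m : PowerSeries K) * PowerSeries.C c * PowerSeries.X * a (m - 1 + j)) :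
    ∀ p, m - 1 ≤ p → a p = 0 := by
  have hC : (PowerSeries.C c : PowerSeries K) ≠ 0 := by
    intro h
    apply hc
    have := congrArg (PowerSeries.constantCoeff (R := K)) h
    simpa using this
  have hX : (PowerSeries.X : PowerSeries K) ≠ 0 := PowerSeries.X_ne_zero
  have hchar : ∀ k : ℕ, 1 ≤ k → ((k : ℕ) : PowerSeries K) ≠ 0 := by
    intro k hk h
    have h1 := congrArg (PowerSeries.constantCoeff (R := K)) h
    simp only [map_natCast, map_zero] at h1
    have : k = 0 := by exact_mod_cast h1
    omega
  have h1 : ∀ j, a (m + j) = 0 := by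
    intro j
    have e1 := hP j
    have e2 := hP' (j + 1)
    have i1 : m + ν - 1 + (j + 1) = m + ν + j := by omega
    have i2 : m - 1 + (j + 1) = m + j := by omega
    rw [i1, i2, e1] at e2
    have e3 : (ν : PowerSeries K) * PowerSeries.C c * PowerSeries.X * a (m + j) = 0 := by
      push_cast at e2
      linear_combination e2
    rcases mul_eq_zero.1 e3 with h | h
    · rcases mul_eq_zero.1 h with h | h
      · rcases mul_eq_zero.1 h with h | h
        · exact absurd h (hchar ν hν)
        · exact absurd h hC
      · exact absurd h hX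
    · exact h
  intro p hp
  rcases Nat.lt_or_ge p m with h | h
  · have hp' : p = m - 1 := by omega
    subst hp'
    have e := hP' 0
    have i1 : m + ν - 1 + 0 = m + (ν - 1) := by omega
    rw [i1, h1, mul_zero, Nat.add_zero] at e
    rcases mul_eq_zero.1 e.symm with h | h
    · rcases mul_eq_zero.1 h with h | h
      · rcases mul_eq_zero.1 h with h | h
        · exact absurd h (hchar m hm)
        · exact absurd h hC
      · exact absurd h hX
    · exact h
  · obtain ⟨j, rfl⟩ := Nat.exists_eq_add_of_le h
    exact h1 j

end Vale.Agent.P269.G1.H598
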