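import Vale.Agent.P269.G1.ZSpec

/-!
# [ZG] the linear part and the mixed products
-/

namespace Vale.Agent.P269.G1.H598

open Finset.HasAntidiagonal (antidiagonal)
open Vale.Agent.P269.CI Vale.Agent.P269.G1

variable {X : CompleteIntersection} {F : ℕ → ℕ → List (Ins X) → ℂ}
variable (hF : IsGW X F) (h1 : IsGenusOne F)

theorem Gam_add (n : ℤ) (x y : AA hF h1) :
    Gam hF h1 n (x + y) = Gam hF h1 n x + Gam hF h1 n y := by
  unfold Gam
  rw [map_add, map_add, map_add, map_add, map_add, smul_add]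
  ring

theorem Gam_smul (n : ℤ) (r : RR X) (x : AA hF h1) :
    Gam hF h1 n (r • x) = r * Gam hF h1 n x := by
  unfold Gam
  rw [map_smul, map_smul, map_smul, map_smul, map_smul, smul_eq_mul, smul_eq_mul, mul_add,
    mul_smul_comm]

/-- `Gam` as a linear map -/
noncomputable def GamL (n : ℤ) : AA hF h1 →ₗ[RR X] RR X where
  toFun := Gam hF h1 n
  map_add' := Gam_add hF h1 n
  map_smul' := Gam_smul hF h1 n

/-- `T ↦ G (T 1)` -/
noncomputable def phi1 : OO hF h1 →+ RR X where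
  toFun T := GG hF h1 (T.1 1)
  map_zero' := by
    change GG hF h1 ((0 : Module.End (RR X) (AA hF h1)) 1) = 0
    rw [LinearMap.zero_apply, map_zero]
  map_add' S T := by
    change GG hF h1 ((S.1 + T.1) 1) = _
    rw [LinearMap.add_apply, map_add]

/-- `T ↦ str (C (T 1)) / 24` -/
noncomputable def phi2 : OO hF h1 →+ RR X where
  toFun T := (1 / 24 : ℂ) • strO hF h1 (CC hF h1 (T.1 1))
  map_zero' := by
    change (1 / 24 : ℂ) • strO hF h1 (CC hF h1 ((0 : Module.End (RR X) (AA hF h1)) 1)) = 0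
    rw [LinearMap.zero_apply, map_zero, map_zero, smul_zero]
  map_add' S T := by
    change (1 / 24 : ℂ) • strO hF h1 (CC hF h1 ((S.1 + T.1) 1)) = _
    rw [LinearMap.add_apply, map_add, map_add, smul_add]

theorem Gam_one (n : ℤ) (T : OO hF h1) : Gam hF h1 n (T.1 1) =
    phi1 hF h1 (SZ hF h1 n * T) + phi2 hF h1 (SZ hF h1 (n - 1) * T) := rfl

theorem bas_zero : (QA.bas (consts hF h1) 0 : AA hF h1) = 1 := by
  funext k
  rw [QA.bas_apply, QA.one_def]

theorem sum_X_bas : (∑ k : Fin (X.dim + 1), (MvPowerSeries.X k : RR X) •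
    (QA.bas (consts hF h1) k : AA hF h1)) = (ST hF h1 1).1 1 := by
  funext m
  rw [ST_one_one]
  have h : (∑ k : Fin (X.dim + 1), (MvPowerSeries.X k : RR X) •
      (QA.bas (consts hF h1) k : AA hF h1)) m =
      ∑ k : Fin (X.dim + 1), (MvPowerSeries.X k : RR X) *
        (QA.bas (consts hF h1) k : AA hF h1) m :=
    Finset.sum_apply (M := fun _ : Fin (X.dim + 1) => RR X) m Finset.univ
      (fun k => ((MvPowerSeries.X k : RR X) • QA.bas (consts hF h1) k : AA hF h1))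
  rw [h, Finset.sum_eq_single m]
  · rw [QA.bas_apply, if_pos rfl, mul_one]
  · intro k _ hk
    rw [QA.bas_apply, if_neg (Ne.symm hk), mul_zero]
  · simp

/-- sums of `Gam` in terms of `aK` -/
theorem sum_Gam (m : ℤ) (K : ℕ) (T : OO hF h1) :
    ∑ i ∈ Finset.range (K + 1), Gam hF h1 (m + K - 1 - i)
      ((Rcl hF h1 ^ i * ee hF h1 m K i * T).1 1) =
    phi1 hF h1 (aK (SZ hF h1) (Rcl hF h1) (ee hF h1) m K 1 * T) +
      phi2 hF h1 (aK (SZ hF h1) (Rcl hF h1) (ee hF h1) m K 2 * T) := by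
  unfold aK
  rw [Finset.sum_mul, Finset.sum_mul, map_sum, map_sum, ← Finset.sum_add_distrib]
  refine Finset.sum_congr rfl fun i _ => ?_
  rw [Gam_one]
  have e1 : m + K - 1 - i = m + K - i - 1 := by ring
  have e2 : m + K - i - 1 - 1 = m + K - i - 2 := by ring
  rw [e1, e2]
  simp only [mul_assoc]

/-- **[ZG2]** the linear part and the mixed products -/
theorem lin_mix (K : ℕ) (hK : 1 ≤ K) :
    ∑ k : Fin (X.dim + 1), MvPowerSeries.X k * linS F K 0 k - linS F K 1 0 + mixS F K =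
      - (GG hF h1 ((DD (RR X) (CC hF h1 (Eu hF h1)) (muO hF h1) 1 K 1).1 1) + (1 / 24 : ℂ) •
        strO hF h1 (CC hF h1 ((DD (RR X) (CC hF h1 (Eu hF h1)) (muO hF h1) 1 K 2).1 1))) := by
  obtain ⟨K, rfl⟩ : ∃ K', K = K' + 1 := ⟨K - 1, by omega⟩
  set a := aK (SZ hF h1) (Rcl hF h1) (ee hF h1) with ha
  -- the first sum
  have s1 : ∑ k : Fin (X.dim + 1), MvPowerSeries.X k * linS F (K + 1) 0 k =
      phi1 hF h1 (a 0 (K + 1) 1 * ST hF h1 1) + phi2 hF h1 (a 0 (K + 1) 2 * ST hF h1 1) := by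
    rw [ha, ← sum_Gam]
    have e1 : ∀ k : Fin (X.dim + 1), MvPowerSeries.X k * linS F (K + 1) 0 k =
        ∑ i ∈ Finset.range (K + 1 + 1), GamL hF h1 ((0 : ℤ) + ((K + 1 : ℕ) : ℤ) - 1 - i)
          ((Rcl hF h1 ^ i * ee hF h1 0 (K + 1) i).1 ((MvPowerSeries.X k : RR X) •
            (QA.bas (consts hF h1) k : AA hF h1))) := by
      intro k
      rw [linS_eq hF h1, Finset.mul_sum]
      refine Finset.sum_congr rfl fun i _ => ?_
      rw [map_smul, map_smul]
      rfl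
    rw [Finset.sum_congr rfl fun k _ => e1 k, Finset.sum_comm]
    refine Finset.sum_congr rfl fun i _ => ?_
    rw [← map_sum, ← map_sum, sum_X_bas]
    rfl
  have s2 : linS F (K + 1) 1 0 =
      phi1 hF h1 (a 1 (K + 1) 1 * ST hF h1 0) + phi2 hF h1 (a 1 (K + 1) 2 * ST hF h1 0) := by
    rw [ha, ← sum_Gam, linS_eq hF h1]
    refine Finset.sum_congr rfl fun i _ => ?_
    have e0 : ST hF h1 0 = 1 := rfl
    rw [e0, mul_one, bas_zero]
    rfl
  have s3 : mixS F (K + 1) = ∑ m ∈ Finset.range K, (-1) ^ (m + 1) *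
      (phi1 hF h1 (a (-(m : ℤ) - 1) (K + 1) 1 * ST hF h1 (m + 2)) +
        phi2 hF h1 (a (-(m : ℤ) - 1) (K + 1) 2 * ST hF h1 (m + 2))) := by
    rw [mixS_eq hF h1]
    refine Finset.sum_congr rfl fun m _ => ?_
    rw [ha, ← sum_Gam]
  have c1 := conj_X hF h1 1 1 (K + 1) (K + 2) (by push_cast; omega)
  have c2 := conj_X hF h1 1 2 (K + 1) (K + 2) (by push_cast; omega)
  rw [← ha, Finset.sum_range_succ', Finset.sum_range_succ'] at c1 c2
  have key : ∀ (φ : OO hF h1 →+ RR X) (p : ℤ),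
      φ (∑ m ∈ Finset.range K, (-1) ^ (m + 1 + 1) * (a (1 - ((m + 1 + 1 : ℕ) : ℤ)) (K + 1) p *
        ST hF h1 (m + 1 + 1)) + (-1) ^ (0 + 1) * (a (1 - ((0 + 1 : ℕ) : ℤ)) (K + 1) p *
        ST hF h1 (0 + 1)) + (-1) ^ 0 * (a (1 - ((0 : ℕ) : ℤ)) (K + 1) p * ST hF h1 0)) =
      - (∑ m ∈ Finset.range K, (-1) ^ (m + 1) * φ (a (-(m : ℤ) - 1) (K + 1) p *
        ST hF h1 (m + 2))) - φ (a 0 (K + 1) p * ST hF h1 1) +
        φ (a 1 (K + 1) p * ST hF h1 0) := by
    intro φ p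
    rw [map_add, map_add, map_sum]
    have t1 : ∀ m : ℕ, φ ((-1) ^ (m + 1 + 1) * (a (1 - ((m + 1 + 1 : ℕ) : ℤ)) (K + 1) p *
        ST hF h1 (m + 1 + 1))) = - ((-1) ^ (m + 1) * φ (a (-(m : ℤ) - 1) (K + 1) p *
        ST hF h1 (m + 2))) := by
      intro m
      have e : (1 - ((m + 1 + 1 : ℕ) : ℤ)) = -(m : ℤ) - 1 := by push_cast; ring
      rw [e]
      rcases Nat.even_or_odd m with hm | hm
      · have h2 : ((-1 : OO hF h1)) ^ (m + 1 + 1) = 1 := by
          rw [pow_succ, pow_succ, hm.neg_one_pow]; noncomm_ring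
        have h3 : ((-1 : RR X)) ^ (m + 1) = -1 := by
          rw [pow_succ, hm.neg_one_pow, one_mul]
        rw [h2, h3, one_mul]
        ring
      · have h2 : ((-1 : OO hF h1)) ^ (m + 1 + 1) = -1 := by
          rw [pow_succ, pow_succ, hm.neg_one_pow]; noncomm_ring
        have h3 : ((-1 : RR X)) ^ (m + 1) = 1 := by
          rw [pow_succ, hm.neg_one_pow]; ring
        rw [h2, h3, neg_one_mul, map_neg]
        ring
    rw [Finset.sum_congr rfl fun m _ => t1 m, Finset.sum_neg_distrib]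
    have e1 : (1 - ((0 + 1 : ℕ) : ℤ)) = 0 := by norm_num
    have e2 : (1 - ((0 : ℕ) : ℤ)) = 1 := by norm_num
    rw [e1, e2, zero_add, pow_one, neg_one_mul, map_neg, pow_zero, one_mul]
    ring
  have r1 := congrArg (phi1 hF h1) c1
  have r2 := congrArg (phi2 hF h1) c2
  rw [key] at r1 r2
  change _ = - (phi1 hF h1 (DD (RR X) (CC hF h1 (Eu hF h1)) (muO hF h1) 1 (K + 1) 1) +
    phi2 hF h1 (DD (RR X) (CC hF h1 (Eu hF h1)) (muO hF h1) 1 (K + 1) 2))
  rw [← r1, ← r2, s1, s2, s3]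
  simp only [mul_add, Finset.sum_add_distrib]
  ring

end Vale.Agent.P269.G1.H598
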