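import Mathlib

/-!
# [P4] linear systems with zero initial value
-/

namespace Vale.Agent.P269.G1.H598

open MvPowerSeries in
/-- **[P4]** a first order linear system with zero initial value has only the zero solution. -/
theorem ode_zero {n : ℕ} {K : Type*} [CommRing K] [Algebra ℚ K] {N : ℕ}
    (a : Fin N → MvPowerSeries (Fin n) K)
    (h0 : ∀ p, MvPowerSeries.constantCoeff (a p) = 0)
    (M : Fin n → Fin N → Fin N → MvPowerSeries (Fin n) K)
    (h : ∀ i p, MvPowerSeries.pderiv K i (a p) = ∑ q, M i p q * a q) : ∀ p, a p = 0 := by
  classical
  have key : ∀ (D : ℕ) (α : Fin n →₀ ℕ), α.degree ≤ D → ∀ p, coeff α (a p) = 0 := by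
    intro D
    induction D with
    | zero =>
      intro α hα p
      have hα0 : α = 0 := by
        have : α.degree = 0 := by omega
        exact (Finsupp.degree_eq_zero_iff α).1 this
      subst hα0
      simpa using h0 p
    | succ D ih =>
      intro α hα p
      by_cases hα0 : α = 0
      · subst hα0
        simpa using h0 p
      obtain ⟨i, hi⟩ : ∃ i, α i ≠ 0 := by
        by_contra hne
        push Not at hne
        exact hα0 (Finsupp.ext hne)
      set β : Fin n →₀ ℕ := α - Finsupp.single i 1 with hβ
      have hαβ : β + Finsupp.single i 1 = α := by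
        rw [hβ]
        refine tsub_add_cancel_of_le ?_
        rw [Finsupp.single_le_iff]
        omega
      have hβd : β.degree ≤ D := by
        have : α.degree = β.degree + 1 := by
          rw [← hαβ]
          simp [map_add]
        omega
      have e := congrArg (coeff β) (h i p)
      rw [coeff_pderiv, hαβ, map_sum] at e
      have e0 : ∑ q, coeff β (M i p q * a q) = 0 := by
        refine Finset.sum_eq_zero fun q _ => ?_
        rw [coeff_mul]
        refine Finset.sum_eq_zero fun x hx => ?_
        have hx' := Finset.HasAntidiagonal.mem_antidiagonal.1 hx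
        rw [ih x.2 ?_ q, mul_zero]
        have : x.1.degree + x.2.degree = β.degree := by
          rw [← hx', map_add]
        omega
      rw [e0] at e
      have hu : ((β i : K) + 1) * algebraMap ℚ K (((β i : ℚ) + 1)⁻¹) = 1 := by
        have h1 : ((β i : K) + 1) = algebraMap ℚ K ((β i : ℚ) + 1) := by simp
        rw [h1, ← map_mul, mul_inv_cancel₀ (by positivity), map_one]
      calc coeff α (a p) = coeff α (a p) * (((β i : K) + 1) * algebraMap ℚ K (((β i : ℚ) + 1)⁻¹)) := by
            rw [hu, mul_one]
        _ = (coeff α (a p) * ((β i : K) + 1)) * algebraMap ℚ K (((β i : ℚ) + 1)⁻¹) := by ring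
        _ = 0 := by rw [e, zero_mul]
  intro p
  ext α
  rw [key α.degree α le_rfl p, map_zero]

end Vale.Agent.P269.G1.H598
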