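import Mathlib

/-!
# [P2] the noncommutative difference quotient of an annihilating polynomial
-/

namespace Vale.Agent.P269.G1.H598

open Finset.HasAntidiagonal (antidiagonal)
open Polynomial

/-- the shifted antidiagonal sum as a sum over a range -/
theorem antidiag_shift {M : Type*} [AddCommMonoid M] (n : ℕ) (f : ℕ → ℕ → M) :
    (∑ e ∈ antidiagonal n, if e.1 = 0 then 0 else f (e.1 - 1) e.2) =
      ∑ i ∈ Finset.range n, f i (n - 1 - i) := by
  cases n with
  | zero => simp
  | succ n =>
    rw [Finset.Nat.sum_antidiagonal_succ, Finset.Nat.sum_antidiagonal_eq_sum_range_succ_mk]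
    simp

variable {R A : Type*} [CommRing R] [Algebra ℚ R] [CommRing A] [Algebra R A]

/-- **[P2]** the noncommutative difference quotient of an annihilating polynomial at a skew
operator vanishes if `E` generates. -/
theorem skew_zero (E : A) (hE : ∀ y : A, ∃ f : R[X], y = aeval E f) (mu : A →ₗ[R] A)
    (η : A →ₗ[R] A →ₗ[R] R) (hη : ∀ x y, η x y = η y x) (hinv : ∀ x y z, η (x * y) z = η x (y * z))
    (hnd : ∀ x, (∀ y, η x y = 0) → x = 0) (hmu : ∀ x y, η (mu x) y = - η x (mu y))
    (P : R[X]) (hP : aeval E P = 0) (y : A) :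
    P.sum (fun n c => ∑ e ∈ antidiagonal n, if e.1 = 0 then 0 else
      c • (E ^ (e.1 - 1) * mu (E ^ e.2 * y))) = 0 := by
  have hsum : ∀ z : A, P.sum (fun n c => ∑ e ∈ antidiagonal n, if e.1 = 0 then 0 else
      c • (E ^ (e.1 - 1) * mu (E ^ e.2 * z))) =
      ∑ n ∈ P.support, P.coeff n • ∑ i ∈ Finset.range n, E ^ i * mu (E ^ (n - 1 - i) * z) := by
    intro z
    rw [Polynomial.sum_def]
    refine Finset.sum_congr rfl fun n _ => ?_
    rw [antidiag_shift n (fun a b => P.coeff n • (E ^ a * mu (E ^ b * z))), Finset.smul_sum]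
  set L : A → A := fun z =>
    ∑ n ∈ P.support, P.coeff n • ∑ i ∈ Finset.range n, E ^ i * mu (E ^ (n - 1 - i) * z) with hL
  rw [hsum y]
  change L y = 0
  have haev : ∑ n ∈ P.support, P.coeff n • E ^ n = 0 := by
    rw [← hP, aeval_def, eval₂_eq_sum, Polynomial.sum_def]
    exact Finset.sum_congr rfl fun n _ => by rw [Algebra.smul_def]
  -- commutation with `E`
  have hcomm : ∀ z, L (E * z) = E * L z := by
    intro z
    have htel : ∀ n : ℕ, E * (∑ i ∈ Finset.range n, E ^ i * mu (E ^ (n - 1 - i) * z)) -
        (∑ i ∈ Finset.range n, E ^ i * mu (E ^ (n - 1 - i) * (E * z))) =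
        E ^ n * mu z - mu (E ^ n * z) := by
      intro n
      have h1 : E * (∑ i ∈ Finset.range n, E ^ i * mu (E ^ (n - 1 - i) * z)) -
        (∑ i ∈ Finset.range n, E ^ i * mu (E ^ (n - 1 - i) * (E * z))) =
        ∑ i ∈ Finset.range n, (E ^ (i + 1) * mu (E ^ (n - (i + 1)) * z) -
          E ^ i * mu (E ^ (n - i) * z)) := by
        rw [Finset.mul_sum, ← Finset.sum_sub_distrib]
        refine Finset.sum_congr rfl fun i hi => ?_
        have hi' := Finset.mem_range.1 hi
        have e1 : n - 1 - i = n - (i + 1) := by omega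
        have e2 : E ^ (n - (i + 1)) * (E * z) = E ^ (n - i) * z := by
          have : n - i = n - (i + 1) + 1 := by omega
          rw [this, pow_succ]
          ring
        rw [e1, e2, pow_succ]
        ring
      rw [h1, Finset.sum_range_sub (fun i => E ^ i * mu (E ^ (n - i) * z))]
      simp
    have h2 : E * L z - L (E * z) = 0 := by
      have : E * L z - L (E * z) = ∑ n ∈ P.support, P.coeff n • (E ^ n * mu z - mu (E ^ n * z)) := by
        rw [hL]
        simp only
        rw [Finset.mul_sum, ← Finset.sum_sub_distrib]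
        refine Finset.sum_congr rfl fun n _ => ?_
        rw [← htel n, smul_sub, mul_smul_comm]
      rw [this]
      have h3 : ∑ n ∈ P.support, P.coeff n • (E ^ n * mu z - mu (E ^ n * z)) =
          (∑ n ∈ P.support, P.coeff n • E ^ n) * mu z -
            mu ((∑ n ∈ P.support, P.coeff n • E ^ n) * z) := by
        rw [Finset.sum_mul, Finset.sum_mul, map_sum, ← Finset.sum_sub_distrib]
        refine Finset.sum_congr rfl fun n _ => ?_
        rw [smul_sub, smul_mul_assoc, smul_mul_assoc, map_smul]
      rw [h3, haev]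
      simp
    exact (sub_eq_zero.1 h2).symm
  have hadd : ∀ z w, L (z + w) = L z + L w := by
    intro z w
    rw [hL]
    simp only [mul_add, map_add, Finset.sum_add_distrib, smul_add]
  have hsmul : ∀ (r : R) z, L (r • z) = r • L z := by
    intro r z
    rw [hL]
    simp only
    rw [Finset.smul_sum]
    refine Finset.sum_congr rfl fun n _ => ?_
    rw [smul_comm r]
    congr 1
    rw [Finset.smul_sum]
    refine Finset.sum_congr rfl fun i _ => ?_
    rw [mul_smul_comm, map_smul, mul_smul_comm]
  let Ll : A →ₗ[R] A := { toFun := L, map_add' := hadd, map_smul' := hsmul }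
  have hpoly : ∀ f : R[X], ∀ z, L (aeval E f * z) = aeval E f * L z := by
    intro f
    induction f using Polynomial.induction_on' with
    | add p q hp hq =>
      intro z
      rw [map_add, add_mul, hadd, hp, hq, add_mul]
    | monomial k r =>
      have hk : ∀ k : ℕ, ∀ z, L (E ^ k * z) = E ^ k * L z := by
        intro k
        induction k with
        | zero => intro z; simp
        | succ k ih =>
          intro z
          rw [pow_succ, mul_assoc, ih, hcomm, mul_assoc]
      intro z
      rw [aeval_monomial, ← Algebra.smul_def, smul_mul_assoc, hsmul, hk, smul_mul_assoc]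
  have hmul : ∀ w z, L (w * z) = w * L z := by
    intro w z
    obtain ⟨f, rfl⟩ := hE w
    exact hpoly f z
  have hself : ∀ x z, η (L x) z = η x (L z) := by
    intro x z
    have h1 : L x = x * L 1 := by rw [← hmul, mul_one]
    have h2 : L z = L 1 * z := by rw [mul_comm, ← hmul, mul_one]
    rw [h1, hinv, h2]
  have hEx : ∀ (i : ℕ) u v, η (E ^ i * u) v = η u (E ^ i * v) := by
    intro i u v
    rw [mul_comm, hinv]
  have hanti : ∀ x z, η (L x) z = - η x (L z) := by
    intro x z
    change η (∑ n ∈ P.support, P.coeff n •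
        ∑ i ∈ Finset.range n, E ^ i * mu (E ^ (n - 1 - i) * x)) z =
      - η x (∑ n ∈ P.support, P.coeff n •
        ∑ i ∈ Finset.range n, E ^ i * mu (E ^ (n - 1 - i) * z))
    rw [map_sum, map_sum, LinearMap.sum_apply, ← Finset.sum_neg_distrib]
    refine Finset.sum_congr rfl fun n _ => ?_
    rw [map_smul, map_smul, LinearMap.smul_apply, ← smul_neg]
    congr 1
    rw [map_sum, map_sum, LinearMap.sum_apply, ← Finset.sum_neg_distrib,
      ← Finset.sum_range_reflect (fun i => - η x (E ^ i * mu (E ^ (n - 1 - i) * z)))]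
    refine Finset.sum_congr rfl fun i hi => ?_
    have hi' := Finset.mem_range.1 hi
    have e1 : n - 1 - (n - 1 - i) = i := by omega
    rw [e1, hEx, hmu, hEx]
  apply hnd
  intro z
  have h1 := hself y z
  have h2 := hanti y z
  have h3 : (2 : R) * η (L y) z = 0 := by linear_combination h2 + h1
  have h4 : algebraMap ℚ R (1 / 2) * (2 : R) = 1 := by
    have h5 : (2 : R) = algebraMap ℚ R 2 := (map_ofNat (algebraMap ℚ R) 2).symm
    rw [h5, ← map_mul]
    norm_num
  calc η (L y) z = (algebraMap ℚ R (1 / 2) * (2 : R)) * η (L y) z := by rw [h4, one_mul]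
    _ = algebraMap ℚ R (1 / 2) * ((2 : R) * η (L y) z) := by ring
    _ = 0 := by rw [h3, mul_zero]

end Vale.Agent.P269.G1.H598
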