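import Mathlib

/-!
# [P3] an isotropic character of a Frobenius algebra gives a double root
-/

namespace Vale.Agent.P269.G1.H598

open Polynomial

variable {R A : Type*} [CommRing R] [Algebra ℚ R] [CommRing A] [Algebra R A]

omit [Algebra ℚ R] in
theorem zero_of_small {n : ℕ} (E : A) (b : Module.Basis (Fin n) R A)
    (hb : ∀ i, b i = E ^ (i : ℕ)) (F : R[X]) (hF : ∀ k, n ≤ k → F.coeff k = 0)
    (h : aeval E F = 0) : F = 0 := by
  by_cases hF0 : F = 0
  · exact hF0
  have hlt : F.natDegree < n := by
    by_contra hge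
    push Not at hge
    have := hF _ hge
    exact hF0 (leadingCoeff_eq_zero.1 this)
  have h1 : aeval E F = ∑ i : Fin n, F.coeff i • b i := by
    rw [aeval_eq_sum_range' hlt, Finset.sum_range]
    exact Finset.sum_congr rfl fun i _ => by rw [hb]
  rw [h1] at h
  have h2 := Fintype.linearIndependent_iff.1 b.linearIndependent (fun i => F.coeff i) h
  ext k
  rcases Nat.lt_or_ge k n with hk | hk
  · simpa using h2 ⟨k, hk⟩
  · simpa using hF k hk

/-- **[P3]** a nilpotent in the direction of a character gives a double root. -/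
theorem double_root {n : ℕ} (hn : 0 < n) (E : A) (b : Module.Basis (Fin n) R A)
    (hb : ∀ i, b i = E ^ (i : ℕ)) (lam : A →ₐ[R] R) (η : A →ₗ[R] A →ₗ[R] R)
    (hη : ∀ x y, η x y = η y x) (hinv : ∀ x y z, η (x * y) z = η x (y * z))
    (hnd : ∀ x, (∀ y, η x y = 0) → x = 0) (s : A) (hs : ∀ x, η s x = lam x) (h0 : lam s = 0)
    (P : R[X]) (hP : P.Monic) (hdeg : P.natDegree = n) (hPE : aeval E P = 0) :
    P.derivative.eval (lam E) = 0 := by
  set l : R := lam E with hl
  have hsE : s * (E - algebraMap R A l) = 0 := by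
    apply hnd
    intro y
    rw [hinv, hs]
    simp [map_mul, map_sub, hl]
  have hroot : P.eval l = 0 := by
    have h1 := aeval_algHom_apply lam E P
    rw [hPE, map_zero, ← hl] at h1
    simpa [coe_aeval_eq_eval] using h1
  have hfac : (X - C l) * (P /ₘ (X - C l)) = P := mul_divByMonic_eq_iff_isRoot.2 hroot
  set Q : R[X] := P /ₘ (X - C l) with hQ
  have hder : P.derivative.eval l = Q.eval l := by
    rw [← hfac]
    simp [derivative_mul]
  set S : R[X] := ∑ i : Fin n, C (b.repr s i) * X ^ (i : ℕ) with hS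
  have hSE : aeval E S = s := by
    rw [hS, map_sum]
    conv_rhs => rw [← b.sum_repr s]
    refine Finset.sum_congr rfl fun i _ => ?_
    rw [map_mul, aeval_C, map_pow, aeval_X, hb, Algebra.smul_def]
  have hScoeff : ∀ k, n ≤ k → S.coeff k = 0 := by
    intro k hk
    rw [hS, finset_sum_coeff]
    refine Finset.sum_eq_zero fun i _ => ?_
    rw [coeff_C_mul, coeff_X_pow, if_neg (by omega), mul_zero]
  set T : R[X] := S * (X - C l) with hT
  have hTE : aeval E T = 0 := by
    rw [hT, map_mul, hSE]
    simpa using hsE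
  set c : R := T.coeff n with hc
  have hTcoeff : ∀ k, n < k → T.coeff k = 0 := by
    intro k hk
    obtain ⟨k, rfl⟩ : ∃ k', k = k' + 1 := ⟨k - 1, by omega⟩
    rw [hT, mul_sub, coeff_sub, coeff_mul_X, coeff_mul_C, hScoeff k (by omega),
      hScoeff (k + 1) (by omega), zero_mul, sub_zero]
  have hz : T - C c * P = 0 := by
    apply zero_of_small E b hb
    · intro k hk
      rw [coeff_sub, coeff_C_mul]
      rcases Nat.lt_or_ge n k with h | h
      · rw [hTcoeff k h, coeff_eq_zero_of_natDegree_lt (by omega), mul_zero, sub_zero]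
      · have : k = n := le_antisymm h hk
        subst this
        have : P.coeff k = 1 := by rw [← hdeg]; exact hP.coeff_natDegree
        rw [this, mul_one, ← hc, sub_self]
    · rw [map_sub, hTE, map_mul, hPE, mul_zero, sub_zero]
  have hSQ : S = C c * Q := by
    have h1 : (X - C l) * (S - C c * Q) = 0 := by
      have h2 : T = C c * P := sub_eq_zero.1 hz
      rw [mul_sub, mul_comm _ S, ← hT, h2]
      nth_rw 1 [← hfac]
      ring
    have h2 := ((monic_X_sub_C l).mul_right_eq_zero_iff (q := S - C c * Q)).1 h1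
    exact sub_eq_zero.1 h2
  have hsQ : s = c • aeval E Q := by
    rw [← hSE, hSQ, map_mul, aeval_C, Algebra.smul_def]
  have hlamQ : lam (aeval E Q) = Q.eval l := by
    have h1 := aeval_algHom_apply lam E Q
    rw [← h1, ← hl, coe_aeval_eq_eval]
  have h3 : c * Q.eval l = 0 := by
    rw [hsQ, map_smul, hlamQ, smul_eq_mul] at h0
    exact h0
  have h4 : Q.eval l • s = 0 := by
    rw [hsQ, smul_smul, mul_comm, h3, zero_smul]
  have h5 : η (Q.eval l • s) 1 = 0 := by rw [h4]; simp
  rw [map_smul, LinearMap.smul_apply, hs, map_one, smul_eq_mul, mul_one] at h5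
  rw [hder, h5]

end Vale.Agent.P269.G1.H598
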