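import Vale.Agent.P269.G1.Conc
import Vale.Agent.P269.G1.ZSpec
import Vale.Agent.P269.G1.H246.One
import Vale.Agent.P269.G1.H598.LinMix

/-!
# [ZH] the genus-one Virasoro constraints on the small phase space: assembly
-/

namespace Vale.Agent.P269.G1.H598

open Finset.HasAntidiagonal (antidiagonal)
open Vale.Agent.P269.CI Vale.Agent.P269.G1

theorem shift_sum {M : Type*} [AddCommMonoid M] (q : ℕ) (f : ℕ → ℕ → M) :
    (∑ e ∈ antidiagonal (q + 1), if e.1 = 0 then 0 else f (e.1 - 1) e.2) =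
      ∑ e ∈ antidiagonal q, f e.1 e.2 := by
  rw [Finset.Nat.sum_antidiagonal_succ]
  simp

variable {X : CompleteIntersection} {F : ℕ → ℕ → List (Ins X) → ℂ}

/-- `1/48` -/
noncomputable def kap (X : CompleteIntersection) : RR X := algebraMap ℚ (RR X) (1 / 48)

theorem kap_spec : 48 * kap X = 1 := by
  unfold kap
  have h : (48 : RR X) = algebraMap ℚ (RR X) 48 := (map_ofNat (algebraMap ℚ (RR X)) 48).symm
  rw [h, ← map_mul]
  norm_num

theorem rat_smul (a : ℤ) (f : RR X) : ((a : ℚ) / 48) • f = (a : RR X) * kap X * f := by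
  rw [Algebra.smul_def]
  congr 1
  unfold kap
  rw [div_eq_mul_one_div, map_mul, map_intCast]

theorem cst_rat (q : ℚ) : cst X (q : ℂ) = algebraMap ℚ (RR X) q := by
  have h : (H246.cstH X).comp (algebraMap ℚ ℂ) = algebraMap ℚ (RR X) := RingHom.ext_rat _ _
  rw [← h]
  rfl

theorem comp_smul (c : ℂ) (f : RR X) : c • f = cst X c * f := by
  ext n m
  rw [cst, MvPowerSeries.coeff_C_mul, PowerSeries.coeff_C_mul]
  rfl

theorem comp_rat_smul (q : ℚ) (f : RR X) : ((q : ℂ)) • f = q • f := by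
  rw [comp_smul, cst_rat, Algebra.smul_def]

theorem cancel_nat {q : ℕ} (hq : q ≠ 0) {a b : RR X} (h : (q : RR X) * a = (q : RR X) * b) :
    a = b := by
  have h1 : algebraMap ℚ (RR X) (1 / q) * (q : RR X) = 1 := by
    have : (q : RR X) = algebraMap ℚ (RR X) q := (map_natCast (algebraMap ℚ (RR X)) q).symm
    rw [this, ← map_mul, one_div, inv_mul_cancel₀ (by exact_mod_cast hq), map_one]
  calc a = (algebraMap ℚ (RR X) (1 / q) * (q : RR X)) * a := by rw [h1, one_mul]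
    _ = algebraMap ℚ (RR X) (1 / q) * ((q : RR X) * a) := by ring
    _ = (algebraMap ℚ (RR X) (1 / q) * (q : RR X)) * b := by rw [h]; ring
    _ = b := by rw [h1, one_mul]

variable (hF : IsGW X F) (h1 : IsGenusOne F)

/-- the loop term and the constant -/
theorem loop_total (q : ℕ) : loopS F (q + 1) + (if q + 1 = 1 then cst X (str X (fun _ => 1) / 16 -
      str X (fun a => mu X a ^ 2) / 4) else 0) =
    - (12 * kap X * ∑ e ∈ antidiagonal q, strO hF h1 (muO hF h1 * CC hF h1 (Eu hF h1) ^ e.1 *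
      muO hF h1 * CC hF h1 (Eu hF h1) ^ e.2)) +
      ((q + 1 : ℕ) : RR X) * (3 * kap X * strO hF h1 (CC hF h1 (Eu hF h1) ^ q)) := by
  rcases Nat.eq_zero_or_pos q with rfl | hq
  · have h0 : loopS F (0 + 1) = 0 := by
      unfold loopS
      simp
    rw [h0, if_pos rfl, zero_add, Finset.HasAntidiagonal.antidiagonal_zero, Finset.sum_singleton]
    simp only [pow_zero, mul_one]
    rw [H246.strO_mu, H246.strO_one]
    have e1 : cst X (str X (fun _ => 1) / 16 - str X (fun a => mu X a ^ 2) / 4) =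
        (3 : ℤ) * kap X * cst X (str X fun _ => 1) -
          (12 : ℤ) * kap X * cst X (str X fun a => mu X a ^ 2) := by
      rw [← rat_smul, ← rat_smul, ← comp_rat_smul, ← comp_rat_smul, comp_smul, comp_smul,
        H246.cst_eq, H246.cst_eq, H246.cst_eq, H246.cst_eq, H246.cst_eq, ← map_mul, ← map_mul,
        ← map_sub]
      congr 1
      push_cast
      ring
    rw [e1]
    push_cast
    ring
  · rw [if_neg (by omega), add_zero]
    apply cancel_nat (q := q) (by omega)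
    have h3 := loop_eq hF h1 q
    have h4 := loop_cyclic (RR X) (strO hF h1) (str_comm hF h1) (CC hF h1 (Eu hF h1))
      (muO hF h1) q
    rw [h3, h4]
    have c1 : (1 / 2 : ℂ) = (((24 : ℤ) : ℚ) / 48 : ℚ) := by push_cast; norm_num
    have c2 : (1 / 2 : ℚ) = ((24 : ℤ) : ℚ) / 48 := by push_cast; norm_num
    have c3 : (1 / 8 : ℚ) = ((6 : ℤ) : ℚ) / 48 := by push_cast; norm_num
    rw [c1, comp_rat_smul, c2, c3, rat_smul, rat_smul, rat_smul]
    have hk := kap_spec (X := X)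
    set K := kap X
    set s1 := ∑ e ∈ antidiagonal q, strO hF h1 (muO hF h1 * CC hF h1 (Eu hF h1) ^ e.1 *
      muO hF h1 * CC hF h1 (Eu hF h1) ^ e.2)
    set s2 := strO hF h1 (CC hF h1 (Eu hF h1) ^ q)
    push_cast
    linear_combination (-12 * (q : RR X) * K * s1 + 3 * (q : RR X) * ((q : RR X) + 1) * K * s2) * hk

theorem CC_apply (x y : AA hF h1) : (CC hF h1 x).1 y = x * y := rfl

theorem kk_apply (q : ℚ) (x : AA hF h1) :
    ((kk (RR X) q : OO hF h1)).1 x = algebraMap ℚ (RR X) q • x := rfl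

theorem mu_apply (x : AA hF h1) :
    (muO hF h1).1 x = dd hF h1 x - cst X ((X.dim : ℂ) / 2) • x := rfl

theorem fst_sum {σ : Type*} (s : Finset σ) (T : σ → OO hF h1) (x : AA hF h1) :
    (∑ i ∈ s, T i).1 x = ∑ i ∈ s, (T i).1 x := by
  rw [Prod.fst_sum, LinearMap.sum_apply]

theorem word_apply (a b : ℕ) : ((CC hF h1 (Eu hF h1) ^ a * (kk (RR X) (3 / 2) + muO hF h1) *
    CC hF h1 (Eu hF h1) ^ b).1 1 : AA hF h1) =
      Eu hF h1 ^ a * (dd hF h1 (Eu hF h1 ^ b)) + (algebraMap ℚ (RR X) (3 / 2) -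
        cst X ((X.dim : ℂ) / 2)) • (Eu hF h1 ^ (a + b)) := by
  rw [← map_pow, ← map_pow]
  change (CC hF h1 (Eu hF h1 ^ a)).1 (((kk (RR X) (3 / 2) : OO hF h1)).1
    ((CC hF h1 (Eu hF h1 ^ b)).1 1) + (muO hF h1).1 ((CC hF h1 (Eu hF h1 ^ b)).1 1)) = _
  rw [CC_apply, CC_apply, kk_apply, mu_apply, mul_one, mul_add, mul_sub, mul_smul_comm,
    mul_smul_comm, ← pow_add, sub_smul]
  ring

/-- **[Z]** the genus-one Virasoro constraint on the small phase space -/
theorem vir_small (k : ℕ) :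
    ser (fun d L => virasoro X F (k + 1) 1 d L) = - (frob hF h1).de (k + 1) := by
  rw [ser_vir hF h1 (k + 1) (by omega), lin_mix hF h1 (k + 1) (by omega), add_assoc,
    loop_total hF h1, DD_one_one, DD_one_two,
    shift_sum k (fun a b => CC hF h1 (Eu hF h1) ^ a * (kk (RR X) (3 / 2) + muO hF h1) *
      CC hF h1 (Eu hF h1) ^ b), fst_sum]
  simp only [word_apply]
  rw [← map_pow, CC_apply, mul_one, Frob.de, Frob.om,
    shift_sum k (fun a b => -((1 / 4 : ℚ) • (frob hF h1).str ((frob hF h1).mu * (frob hF h1).C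
      ((frob hF h1).E ^ a) * (frob hF h1).mu * (frob hF h1).C ((frob hF h1).E ^ b)))
      - (1 / 24 : ℚ) • ((frob hF h1).str ((frob hF h1).C ((frob hF h1).E ^ a *
        (frob hF h1).d ((frob hF h1).E ^ b))) - (frob hF h1).rho • (frob hF h1).str
          ((frob hF h1).C ((frob hF h1).E ^ a * (frob hF h1).E ^ b))))]
  change - (GG hF h1 (Eu hF h1 ^ (k + 1)) + (1 / 24 : ℂ) • strO hF h1 (CC hF h1 _)) + _ =
    - (GG hF h1 (Eu hF h1 ^ (k + 1)) - ∑ e ∈ antidiagonal k,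
      (-((1 / 4 : ℚ) • strO hF h1 (muO hF h1 * CC hF h1 (Eu hF h1 ^ e.1) * muO hF h1 *
        CC hF h1 (Eu hF h1 ^ e.2))) - (1 / 24 : ℚ) • (strO hF h1 (CC hF h1 (Eu hF h1 ^ e.1 *
          dd hF h1 (Eu hF h1 ^ e.2))) - ((X.dim : ℚ) / 2) • strO hF h1 (CC hF h1
            (Eu hF h1 ^ e.1 * Eu hF h1 ^ e.2)))))
  have c1 : (1 / 24 : ℂ) = (((2 : ℤ) : ℚ) / 48 : ℚ) := by push_cast; norm_num
  have c2 : (1 / 24 : ℚ) = ((2 : ℤ) : ℚ) / 48 := by push_cast; norm_num
  have c3 : (1 / 4 : ℚ) = ((12 : ℤ) : ℚ) / 48 := by push_cast; norm_num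
  have c4 : algebraMap ℚ (RR X) (3 / 2) = 72 * kap X := by
    have : (3 / 2 : ℚ) = 72 * (1 / 48) := by norm_num
    rw [this, map_mul, map_ofNat]
    rfl
  have c5 : ∀ f : RR X, ((X.dim : ℚ) / 2) • f = cst X ((X.dim : ℂ) / 2) * f := by
    intro f
    rw [← comp_rat_smul, comp_smul]
    congr 2
    push_cast
    ring
  rw [c1, comp_rat_smul, c2, c3, map_sum, map_sum]
  simp only [rat_smul, c4, c5]
  have hsplit : ∀ e ∈ antidiagonal k, strO hF h1 (CC hF h1 (Eu hF h1 ^ e.1 *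
      dd hF h1 (Eu hF h1 ^ e.2) + (72 * kap X - cst X ((X.dim : ℂ) / 2)) •
        Eu hF h1 ^ (e.1 + e.2))) = strO hF h1 (CC hF h1 (Eu hF h1 ^ e.1 *
      dd hF h1 (Eu hF h1 ^ e.2))) + (72 * kap X - cst X ((X.dim : ℂ) / 2)) *
        strO hF h1 (CC hF h1 (Eu hF h1) ^ k) := by
    intro e he
    rw [map_add, map_add, map_smul, map_smul, smul_eq_mul,
      Finset.HasAntidiagonal.mem_antidiagonal.1 he, map_pow (CC hF h1)]
  rw [Finset.sum_congr rfl hsplit, Finset.sum_add_distrib, Finset.sum_const,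
    Finset.Nat.card_antidiagonal, nsmul_eq_mul]
  have hsplit2 : ∀ e ∈ antidiagonal k, (-(((12 : ℤ) : RR X) * kap X * strO hF h1 (muO hF h1 *
      CC hF h1 (Eu hF h1 ^ e.1) * muO hF h1 * CC hF h1 (Eu hF h1 ^ e.2))) -
      ((2 : ℤ) : RR X) * kap X * (strO hF h1 (CC hF h1 (Eu hF h1 ^ e.1 *
          dd hF h1 (Eu hF h1 ^ e.2))) - cst X ((X.dim : ℂ) / 2) * strO hF h1 (CC hF h1
            (Eu hF h1 ^ e.1 * Eu hF h1 ^ e.2)))) =
      (-12 * kap X) * strO hF h1 (muO hF h1 * CC hF h1 (Eu hF h1) ^ e.1 * muO hF h1 *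
        CC hF h1 (Eu hF h1) ^ e.2) + (-2 * kap X) * strO hF h1 (CC hF h1 (Eu hF h1 ^ e.1 *
          dd hF h1 (Eu hF h1 ^ e.2))) + 2 * kap X * cst X ((X.dim : ℂ) / 2) *
            strO hF h1 (CC hF h1 (Eu hF h1) ^ k) := by
    intro e he
    rw [← pow_add, Finset.HasAntidiagonal.mem_antidiagonal.1 he, map_pow (CC hF h1) _ e.1,
      map_pow (CC hF h1) _ e.2, map_pow (CC hF h1) _ k]
    push_cast
    ring
  rw [Finset.sum_congr rfl hsplit2, Finset.sum_add_distrib, Finset.sum_add_distrib,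
    Finset.sum_const, Finset.Nat.card_antidiagonal, nsmul_eq_mul, ← Finset.mul_sum,
    ← Finset.mul_sum]
  have hk := kap_spec (X := X)
  push_cast
  linear_combination (-3 * ((k : RR X) + 1) * kap X *
    strO hF h1 (CC hF h1 (Eu hF h1) ^ k)) * hk

end Vale.Agent.P269.G1.H598
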